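import Vale.Agent.P207.BlkD1

/-!
# P207, project Q, block A6: structure equations on the bundle of linear frames, in a chart

In a chart a linear frame is `p = (u, e)`, `e : ι → E`.  `hor G a` is the horizontal field of the
`a`-th vector of the frame, `ver A` the fundamental vertical field of the matrix `A`
(`(d/ds) e_c = ∑_b A b c e_b`).
-/

open scoped Manifold ContDiff ENNReal Topology
open Set Filter VectorField

set_option maxSynthPendingDepth 3

noncomputable section

namespace Vale.Agent.P207.Q.Brk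

open Vale.Agent.P255 Vale.Agent.P207.D1

section Coord

variable {E : Type} [NormedAddCommGroup E] [NormedSpace ℝ E]
variable {ι : Type} [Fintype ι]
variable {G : E → E →L[ℝ] E →L[ℝ] ℝ} {U : Set E}

/-- the horizontal field of the `a`-th vector of the frame -/
def hor (G : E → E →L[ℝ] E →L[ℝ] ℝ) (a : ι) (p : E × (ι → E)) : E × (ι → E) :=
  (p.2 a, fun c => -(chrisB G p.1 (p.2 a) (p.2 c)))

/-- the vertical field of the matrix `A` -/
def ver (A : Matrix ι ι ℝ) (p : E × (ι → E)) : E × (ι → E) :=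
  (0, fun c => ∑ b, A b c • p.2 b)

/-- the vertical field as a continuous linear map -/
def verL (A : Matrix ι ι ℝ) : (E × (ι → E)) →L[ℝ] (E × (ι → E)) :=
  (0 : (E × (ι → E)) →L[ℝ] E).prod (ContinuousLinearMap.pi fun c =>
    ∑ b, A b c • ((ContinuousLinearMap.proj b : (ι → E) →L[ℝ] E) ∘L
      (ContinuousLinearMap.snd ℝ E (ι → E))))

theorem verL_apply (A : Matrix ι ι ℝ) (p : E × (ι → E)) : verL A p = ver A p := by
  simp only [verL, ver, ContinuousLinearMap.prod_apply, zero_apply]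
  ext1
  · rfl
  · ext1 c
    simp

/-- the frame vector as a continuous linear map -/
def frL (c : ι) : (E × (ι → E)) →L[ℝ] E :=
  (ContinuousLinearMap.proj c : (ι → E) →L[ℝ] E) ∘L (ContinuousLinearMap.snd ℝ E (ι → E))

omit [Fintype ι] in
theorem frL_apply (c : ι) (p : E × (ι → E)) : frL c p = p.2 c := rfl

/-- the derivative of a horizontal field -/
def horD (G : E → E →L[ℝ] E →L[ℝ] ℝ) (a : ι) (p : E × (ι → E)) :
    (E × (ι → E)) →L[ℝ] (E × (ι → E)) :=
  (frL a).prod (ContinuousLinearMap.pi fun c =>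
    -(((fderiv ℝ (chrisB G) p.1 ∘L ContinuousLinearMap.fst ℝ E (ι → E)).flip (p.2 a)).flip (p.2 c)
      + ((chrisB G p.1).flip (p.2 c)) ∘L frL a + (chrisB G p.1 (p.2 a)) ∘L frL c))

theorem horD_apply (a : ι) (p q : E × (ι → E)) :
    horD G a p q = (q.2 a, fun c => -(fderiv ℝ (chrisB G) p.1 q.1 (p.2 a) (p.2 c)
      + chrisB G p.1 (q.2 a) (p.2 c) + chrisB G p.1 (p.2 a) (q.2 c))) := by
  simp [horD, frL]

variable [FiniteDimensional ℝ E]

theorem hasFDerivAt_hor (h : IsMetricOn G U) {p : E × (ι → E)} (hp : p.1 ∈ U) (a : ι) :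
    HasFDerivAt (hor G a) (horD G a p) p := by
  have h1 : HasFDerivAt (fun q : E × (ι → E) => chrisB G q.1)
      (fderiv ℝ (chrisB G) p.1 ∘L ContinuousLinearMap.fst ℝ E (ι → E)) p :=
    ((h.contDiffAt_chrisB hp).differentiableAt (by simp)).hasFDerivAt.comp p hasFDerivAt_fst
  have h2 : ∀ c : ι, HasFDerivAt (fun q : E × (ι → E) => q.2 c) (frL c) p := fun c =>
    (frL (E := E) c).hasFDerivAt
  have h3 : HasFDerivAt (fun q : E × (ι → E) => fun c => -(chrisB G q.1 (q.2 a) (q.2 c)))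
      (ContinuousLinearMap.pi fun c => -(((fderiv ℝ (chrisB G) p.1 ∘L
        ContinuousLinearMap.fst ℝ E (ι → E)).flip (p.2 a)).flip (p.2 c)
      + ((chrisB G p.1).flip (p.2 c)) ∘L frL a + (chrisB G p.1 (p.2 a)) ∘L frL c)) p := by
    rw [hasFDerivAt_pi]
    intro c
    refine (((h1.clm_apply (h2 a)).clm_apply (h2 c)).neg).congr_fderiv ?_
    ext q <;> simp <;> abel
  exact (h2 a).prodMk h3

omit [FiniteDimensional ℝ E] in
theorem hasFDerivAt_ver (A : Matrix ι ι ℝ) (p : E × (ι → E)) :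
    HasFDerivAt (ver A) (verL A) p := by
  have h := (verL (E := E) A).hasFDerivAt (x := p)
  exact h.congr_of_eventuallyEq (Eventually.of_forall fun q => (verL_apply A q).symm)

/-- `[H_a, H_b] = - R(e_a, e_b)` -/
theorem lieBracket_hor_hor (h : IsMetricOn G U) {p : E × (ι → E)} (hp : p.1 ∈ U) (a b : ι) :
    lieBracket ℝ (hor G a) (hor G b) p =
      (0, fun c => -(curvT G p.1 (p.2 a) (p.2 b) (p.2 c))) := by
  rw [lieBracket, (hasFDerivAt_hor h hp a).fderiv, (hasFDerivAt_hor h hp b).fderiv,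
    horD_apply, horD_apply]
  have hs : ∀ x y, chrisB G p.1 x y = chrisB G p.1 y x := by
    intro x y
    rw [chrisB_apply, chrisB_apply, h.chris_symm hp]
  ext1
  · simp only [hor, Prod.fst_sub]
    rw [hs (p.2 b) (p.2 a)]
    abel
  · ext1 c
    simp only [hor, Prod.snd_sub, Pi.sub_apply]
    rw [curvT_apply h hp, h.curv_eq hp]
    simp only [map_neg, neg_apply]
    rw [hs (p.2 b) (p.2 a)]
    abel

/-- `[V_A, H_b] = ∑_d A_{db} H_d` -/
theorem lieBracket_ver_hor (h : IsMetricOn G U) {p : E × (ι → E)} (hp : p.1 ∈ U)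
    (A : Matrix ι ι ℝ) (b : ι) :
    lieBracket ℝ (ver A) (hor G b) p = ∑ d, A d b • hor G d p := by
  rw [lieBracket, (hasFDerivAt_hor h hp b).fderiv, (hasFDerivAt_ver A p).fderiv,
    horD_apply, verL_apply]
  ext1
  · simp only [ver, hor, Prod.fst_sub, Prod.fst_sum, Prod.smul_fst, sub_zero]
  · ext1 c
    simp only [ver, hor, Prod.snd_sub, Prod.snd_sum, Prod.smul_snd, Pi.sub_apply,
      Finset.sum_apply, Pi.smul_apply, map_zero, zero_apply, map_sum, map_smul, sum_apply,
      smul_apply, smul_neg, Finset.sum_neg_distrib, zero_add]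
    abel

omit [FiniteDimensional ℝ E] in
/-- `[V_A, V_B] = V_{AB - BA}` -/
theorem lieBracket_ver_ver {p : E × (ι → E)} (A B : Matrix ι ι ℝ) :
    lieBracket ℝ (ver (E := E) A) (ver B) p = ver (A * B - B * A) p := by
  rw [lieBracket, (hasFDerivAt_ver A p).fderiv, (hasFDerivAt_ver B p).fderiv, verL_apply,
    verL_apply]
  ext1
  · simp [ver]
  · ext1 c
    simp only [ver, Prod.snd_sub, Pi.sub_apply, Matrix.sub_apply, Matrix.mul_apply,
      sub_smul, Finset.sum_sub_distrib, Finset.smul_sum, Finset.sum_smul, smul_smul]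
    congr 1
    · rw [Finset.sum_comm]
      exact Finset.sum_congr rfl fun i _ => Finset.sum_congr rfl fun j _ => by rw [mul_comm]
    · rw [Finset.sum_comm]
      exact Finset.sum_congr rfl fun i _ => Finset.sum_congr rfl fun j _ => by rw [mul_comm]

omit [FiniteDimensional ℝ E] in
theorem fderiv_metric_apply (h : IsMetricOn G U) {p : E × (ι → E)} (hp : p.1 ∈ U) (b c : ι)
    (q : E × (ι → E)) :
    fderiv ℝ (fun q : E × (ι → E) => G q.1 (q.2 b) (q.2 c)) p q =
      fderiv ℝ G p.1 q.1 (p.2 b) (p.2 c) + G p.1 (q.2 b) (p.2 c) + G p.1 (p.2 b) (q.2 c) := by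
  have h1 : HasFDerivAt (fun q : E × (ι → E) => G q.1)
      (fderiv ℝ G p.1 ∘L ContinuousLinearMap.fst ℝ E (ι → E)) p :=
    (h.differentiableAt hp).hasFDerivAt.comp p hasFDerivAt_fst
  have h2 : ∀ c : ι, HasFDerivAt (fun q : E × (ι → E) => q.2 c) (frL c) p := fun c =>
    (frL (E := E) c).hasFDerivAt
  rw [((h1.clm_apply (h2 b)).clm_apply (h2 c)).fderiv]
  simp [frL]
  ring

/-- metric compatibility: `G(e_b, e_c)` is constant along the horizontal fields -/
theorem fderiv_metric_hor (h : IsMetricOn G U) {p : E × (ι → E)} (hp : p.1 ∈ U) (a b c : ι) :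
    fderiv ℝ (fun q : E × (ι → E) => G q.1 (q.2 b) (q.2 c)) p (hor G a p) = 0 := by
  rw [fderiv_metric_apply h hp]
  simp only [hor, map_neg, neg_apply]
  rw [h.chris_compat hp, chrisB_apply, chrisB_apply]
  ring

omit [FiniteDimensional ℝ E] in
/-- `G(e_b, e_c)` along the vertical fields -/
theorem fderiv_metric_ver (h : IsMetricOn G U) {p : E × (ι → E)} (hp : p.1 ∈ U)
    (A : Matrix ι ι ℝ) (b c : ι) :
    fderiv ℝ (fun q : E × (ι → E) => G q.1 (q.2 b) (q.2 c)) p (ver A p) =
      ∑ d, A d b * G p.1 (p.2 d) (p.2 c) + ∑ d, A d c * G p.1 (p.2 b) (p.2 d) := by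
  rw [fderiv_metric_apply h hp]
  simp [ver, map_sum]

/-- expansion of a vector in an orthonormal frame -/
theorem sum_orth (h : IsMetricOn G U) {p : E × (ι → E)} (hp : p.1 ∈ U)
    (hcard : Fintype.card ι = Module.finrank ℝ E) [DecidableEq ι]
    (ho : ∀ b c, G p.1 (p.2 b) (p.2 c) = if b = c then 1 else 0) (w : E) :
    ∑ b, G p.1 w (p.2 b) • p.2 b = w := by
  have hli : LinearIndependent ℝ p.2 := by
    rw [Fintype.linearIndependent_iff]
    intro c hc i
    have h1 := congrArg (fun z => G p.1 z (p.2 i)) hc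
    simpa [map_sum, ho] using h1
  have hspan : Submodule.span ℝ (Set.range p.2) = ⊤ :=
    hli.span_eq_top_of_card_eq_finrank' hcard
  obtain ⟨c, hc⟩ := (Submodule.mem_span_range_iff_exists_fun ℝ).1
    (hspan ▸ Submodule.mem_top : w ∈ Submodule.span ℝ (Set.range p.2))
  subst hc
  refine Finset.sum_congr rfl fun b _ => ?_
  congr 1
  simp [map_sum, ho]

/-- `[H_a, H_b]` at an orthonormal frame is the vertical field of the curvature matrix -/
theorem lieBracket_hor_hor_orth (h : IsMetricOn G U) {p : E × (ι → E)} (hp : p.1 ∈ U)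
    (hcard : Fintype.card ι = Module.finrank ℝ E) [DecidableEq ι]
    (ho : ∀ b c, G p.1 (p.2 b) (p.2 c) = if b = c then 1 else 0) (a b : ι) :
    lieBracket ℝ (hor G a) (hor G b) p =
      ver (Matrix.of fun d c => -(G p.1 (curvT G p.1 (p.2 a) (p.2 b) (p.2 c)) (p.2 d))) p := by
  rw [lieBracket_hor_hor h hp]
  simp only [ver]
  congr 1
  ext1 c
  rw [← sum_orth h hp hcard ho (-(curvT G p.1 (p.2 a) (p.2 b) (p.2 c)))]
  simp

/-- the generator of the rotation taking `e_j` to `e_i` -/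
def rot [DecidableEq ι] (i j : ι) : Matrix ι ι ℝ := Matrix.single i j 1 - Matrix.single j i 1

omit [Fintype ι] in
/-- the curvature matrix is skew -/
theorem curv_matrix_skew (h : IsMetricOn G U) {p : E × (ι → E)} (hp : p.1 ∈ U) (a b c d : ι) :
    G p.1 (curvT G p.1 (p.2 a) (p.2 b) (p.2 c)) (p.2 d) =
      -G p.1 (curvT G p.1 (p.2 a) (p.2 b) (p.2 d)) (p.2 c) :=
  curvT_skew h hp _ _ _ _

end Coord

section Comm

variable {F F' : Type} [NormedAddCommGroup F] [NormedSpace ℝ F] [NormedAddCommGroup F']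
  [NormedSpace ℝ F']

/-- the commutator of two derivations applied to a `C²` function -/
theorem fderiv_fderiv_sub {f : F → F'} {V W : F → F} {p : F} (hf : ContDiffAt ℝ 2 f p)
    (hV : DifferentiableAt ℝ V p) (hW : DifferentiableAt ℝ W p) :
    fderiv ℝ (fun q => fderiv ℝ f q (W q)) p (V p) - fderiv ℝ (fun q => fderiv ℝ f q (V q)) p (W p)
      = fderiv ℝ f p (lieBracket ℝ V W p) := by
  have h1 : HasFDerivAt (fderiv ℝ f) (fderiv ℝ (fderiv ℝ f) p) p :=
    ((hf.fderiv_right (m := 1) (by norm_num)).differentiableAt (by norm_num)).hasFDerivAt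
  have hs : IsSymmSndFDerivAt ℝ f p := hf.isSymmSndFDerivAt (by simp)
  rw [(h1.clm_apply hW.hasFDerivAt).fderiv, (h1.clm_apply hV.hasFDerivAt).fderiv, lieBracket]
  simp only [add_apply, ContinuousLinearMap.comp_apply,
    ContinuousLinearMap.flip_apply, map_sub]
  rw [hs (V p) (W p)]
  abel

end Comm

end Vale.Agent.P207.Q.Brk
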