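import Vale.Agent.P207.Q.H916.Fr7
import Vale.Agent.P207.Q.H892.CurvFr

/-!
# P207, n = 3, block R2: the curvature functions are smooth functions on the frame bundle

`smF_Rf`, `smF_Ef`: the curvature components of the frames are smooth (`SmF`);
`SmF.comp_of_mem`: composition with a function smooth on a neighbourhood of the range; `inv`,
`log`, `exp`, `sum`, `neg`, `sub`, `smul`.
-/

open scoped Manifold ContDiff ENNReal Topology
open Bundle MeasureTheory Set Filter

set_option maxSynthPendingDepth 3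

noncomputable section

namespace Vale.Agent.P207.Q.H743

open Vale.Agent.P255 (RMetric coefIn Gam Riem IsGeo Metric trans coefL IsMetricOn)
open Vale.Agent.P207 Vale.Agent.P207.Q Vale.Agent.P207.Q.H892 Vale.Agent.P207.Q.H545

section

variable {n : ℕ} {M : Type} [TopologicalSpace M] [ChartedSpace (EV n) M]
  [IsManifold 𝓘(ℝ, EV n) ∞ M] {g : RMetric (EV n) M}

/-- the curvature components in any chart, as the chart function `RR` -/
theorem Rf_eq_RR (f : Fr g) (i j k l : Fin n) {a : M} (ha : f.pt ∈ (chartAt (EV n) a).source) :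
    Rf g f i j k l = RR ((mt g).coef a) i j k l (chF a f.1) :=
  Rf_eq f i j k l ha

theorem contDiffOn_RR_gs {G : EV n → EV n →L[ℝ] EV n →L[ℝ] ℝ} {U : Set (EV n)}
    (h : IsMetricOn G U) (i j k l : Fin n) :
    ContDiffOn ℝ ∞ (fun y : St (Fin n) n => RR G i j k l (gsSt G y)) (gsDom G U) := by
  intro y hy
  have h1 : (gsSt G y).1 ∈ U := hy.1
  exact ((contDiffAt_RR h h1 i j k l).comp y (contDiffAt_gsSt h hy)).contDiffWithinAt

/-- **the curvature components are smooth functions on the frame bundle** -/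
theorem smF_Rf (i j k l : Fin n) : SmF (fun f : Fr g => Rf g f i j k l) :=
  SmF.congr_rd (F := fun a y => RR ((mt g).coef a) i j k l (gsSt ((mt g).coef a) y))
    (fun a y hy => by
      rw [rd_of_mem _ hy, Rf_eq_RR _ i j k l (frOf_pt a hy), chF_frOf a hy])
    fun a => contDiffOn_RR_gs ((mt g).isMetricOn a) i j k l

variable {V W : Type} [NormedAddCommGroup V] [NormedSpace ℝ V] [NormedAddCommGroup W]
  [NormedSpace ℝ W]

/-- composition with a function which is smooth at all points of the range -/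
theorem SmF.comp_of_mem {f : Fr g → V} (hf : SmF f) {F : V → W}
    (hF : ∀ p, ContDiffAt ℝ ∞ F (f p)) : SmF (fun p => F (f p)) :=
  SmF.congr_rd (F := fun a y => F (rd f a y))
    (fun a y hy => by rw [rd_of_mem _ hy, rd_of_mem _ hy]) fun a y hy => by
      have h1 : ContDiffAt ℝ ∞ F (rd f a y) := by
        rw [rd_of_mem _ hy]
        exact hF _
      exact (h1.comp y (hf.contDiffAt hy)).contDiffWithinAt

theorem SmF.inv {f : Fr g → ℝ} (hf : SmF f) (h0 : ∀ p, f p ≠ 0) : SmF (fun p => (f p)⁻¹) :=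
  SmF.comp_of_mem (F := fun x => x⁻¹) hf fun p => contDiffAt_inv ℝ (h0 p)

theorem SmF.div {f f' : Fr g → ℝ} (hf : SmF f) (hf' : SmF f') (h0 : ∀ p, f' p ≠ 0) :
    SmF (fun p => f p / f' p) := by
  simp only [div_eq_mul_inv]
  exact hf.mul (SmF.inv hf' h0)

theorem SmF.log {f : Fr g → ℝ} (hf : SmF f) (h0 : ∀ p, f p ≠ 0) : SmF (fun p => Real.log (f p)) :=
  SmF.comp_of_mem (F := Real.log) hf fun p => Real.contDiffAt_log.2 (h0 p)

theorem SmF.sqrt {f : Fr g → ℝ} (hf : SmF f) (h0 : ∀ p, f p ≠ 0) :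
    SmF (fun p => Real.sqrt (f p)) :=
  SmF.comp_of_mem (F := Real.sqrt) hf fun p => Real.contDiffAt_sqrt (h0 p)

theorem SmF.exp {f : Fr g → ℝ} (hf : SmF f) : SmF (fun p => Real.exp (f p)) :=
  hf.comp Real.contDiff_exp

theorem SmF.neg {f : Fr g → V} (hf : SmF f) : SmF (fun p => -f p) :=
  hf.comp (F := fun v => -v) contDiff_neg

theorem SmF.sub {f f' : Fr g → V} (hf : SmF f) (hf' : SmF f') : SmF (fun p => f p - f' p) := by
  simp only [sub_eq_add_neg]
  exact hf.add (SmF.neg hf')

theorem SmF.const_smul {f : Fr g → V} (hf : SmF f) (c : ℝ) : SmF (fun p => c • f p) :=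
  hf.comp (F := fun v => c • v) (contDiff_const_smul c)

theorem SmF.sum {σ : Type} (s : Finset σ) {f : σ → Fr g → V} (hf : ∀ i ∈ s, SmF (f i)) :
    SmF (fun p => ∑ i ∈ s, f i p) :=
  SmF.congr_rd (F := fun a y => ∑ i ∈ s, rd (f i) a y)
    (fun a y hy => by
      rw [rd_of_mem _ hy]
      exact Finset.sum_congr rfl fun i _ => (rd_of_mem _ hy).symm)
    fun a => ContDiffOn.sum fun i hi => hf i hi a

theorem SmF.prodMk {f : Fr g → V} {f' : Fr g → W} (hf : SmF f) (hf' : SmF f') :
    SmF (fun p => (f p, f' p)) :=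
  SmF.congr_rd (F := fun a y => (rd f a y, rd f' a y))
    (fun a y hy => by rw [rd_of_mem _ hy, rd_of_mem _ hy, rd_of_mem _ hy])
    fun a => (hf a).prodMk (hf' a)

end

section dim3

variable {M : Type} [TopologicalSpace M] [ChartedSpace (EV 3) M]
  [IsManifold 𝓘(ℝ, EV 3) ∞ M] {g : RMetric (EV 3) M}

/-- **the curvature operator is smooth on the frame bundle** -/
theorem smF_Ef [CompactSpace M] [T2Space M] (a b : Fin 3) : SmF (fun f : Fr g => Ef g a b f) :=
  SmF.neg (smF_Rf (a + 1) (a + 2) (b + 2) (b + 1))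

end dim3

end Vale.Agent.P207.Q.H743
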